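import Vale.Agent.P042.WA.ST.Core
import Mathlib.RingTheory.Filtration
import Mathlib.Algebra.CharP.Frobenius
set_option autoImplicit false

/-! P042, block STP: the power Stepanov lemma, auxiliary function (helper682). -/

namespace Vale.Agent.P042.WB.STPB

open Vale.Agent.P042.WA Vale.Agent.P042.WA.STB

variable {𝕜 R : Type} [Field 𝕜] [CommRing R] [Algebra 𝕜 R]

theorem not_finite_of_filt {n W : ℕ} {V : ℕ → Submodule 𝕜 R} (hn : 1 ≤ n) (hV : Filt 𝕜 n W V) :
    ¬ Module.Finite 𝕜 R := by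
  intro h
  have h1 := hV.lower (Module.finrank 𝕜 R + W + 1)
  have h2 := Submodule.finrank_le (V (Module.finrank 𝕜 R + W + 1))
  nlinarith

/-- the powers of a maximal ideal (kernel of a point) are strictly decreasing -/
theorem pow_ne_pow_succ [IsDomain R] [IsNoetherianRing R] (hinf : ¬ Module.Finite 𝕜 R)
    (φ : R →ₐ[𝕜] 𝕜) (i : ℕ) :
    (RingHom.ker φ) ^ i ≠ (RingHom.ker φ) ^ (i + 1) := by
  intro h
  set m : Ideal R := RingHom.ker φ with hm
  have hmtop : m ≠ ⊤ := RingHom.ker_ne_top φ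
  have hj : ∀ j, m ^ i ≤ m ^ j := by
    intro j
    rcases le_total j i with hji | hij
    · exact Ideal.pow_le_pow_right hji
    · obtain ⟨k, rfl⟩ := Nat.exists_eq_add_of_le hij
      clear hij
      induction k with
      | zero => exact le_rfl
      | succ k ih =>
        calc m ^ i = m ^ (i + 1) := h
          _ = m ^ i * m := pow_succ m i
          _ ≤ m ^ (i + k) * m := Ideal.mul_mono_left ih
          _ = m ^ (i + (k + 1)) := by rw [← pow_succ]; rfl
  have h1 : m ^ i = ⊥ := by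
    rw [eq_bot_iff, ← Ideal.iInf_pow_eq_bot_of_isDomain m hmtop]
    exact le_iInf hj
  have h2 : m = ⊥ := by
    rw [eq_bot_iff]
    intro x hx
    have h3 : x ^ i ∈ m ^ i := Ideal.pow_mem_pow hx i
    rw [h1, Ideal.mem_bot] at h3
    rw [Ideal.mem_bot]
    exact eq_zero_of_pow_eq_zero h3
  apply hinf
  have hinj : Function.Injective φ.toLinearMap := by
    rw [← LinearMap.ker_eq_bot, eq_bot_iff]
    intro x hx
    have h3 : x ∈ m := hx
    rw [h2] at h3
    exact h3
  exact Module.Finite.of_injective φ.toLinearMap hinj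

/-- an element of the `s`-th power of the maximal ideal of a point -/
theorem le_finrank_of_mem_pow [IsDomain R] [IsNoetherianRing R] (hinf : ¬ Module.Finite 𝕜 R)
    (φ : R →ₐ[𝕜] 𝕜) (s : ℕ) (f : R) (hf : f ∈ (RingHom.ker φ) ^ s)
    (hfin : Module.Finite 𝕜 (R ⧸ Ideal.span {f})) :
    s ≤ Module.finrank 𝕜 (R ⧸ Ideal.span {f}) := by
  set m : Ideal R := RingHom.ker φ with hm
  set π : R →ₗ[𝕜] R ⧸ Ideal.span {f} := (Ideal.Quotient.mkₐ 𝕜 (Ideal.span {f})).toLinearMap
    with hπ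
  let N : ℕ → Submodule 𝕜 (R ⧸ Ideal.span {f}) := fun i => ((m ^ i).restrictScalars 𝕜).map π
  have hlt : ∀ i < s, N (i + 1) < N i := by
    intro i hi
    refine lt_of_le_of_ne (Submodule.map_mono ?_) ?_
    · intro x hx
      exact Ideal.pow_le_pow_right (Nat.le_succ i) hx
    · intro heq
      apply pow_ne_pow_succ hinf φ i
      apply le_antisymm _ (Ideal.pow_le_pow_right (Nat.le_succ i))
      intro x hx
      have h1 : π x ∈ N i := Submodule.mem_map_of_mem hx
      rw [← heq] at h1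
      obtain ⟨y, hy, hxy⟩ := Submodule.mem_map.1 h1
      have h2 : x - y ∈ Ideal.span {f} := by
        rw [← Ideal.Quotient.eq_zero_iff_mem, map_sub, sub_eq_zero]
        exact hxy.symm
      have h3 : Ideal.span {f} ≤ m ^ (i + 1) := by
        rw [Ideal.span_singleton_le_iff_mem]
        exact Ideal.pow_le_pow_right hi hf
      have h4 : x = y + (x - y) := by ring
      rw [h4]
      exact Ideal.add_mem _ hy (h3 h2)
  have hind : ∀ i ≤ s, Module.finrank 𝕜 (N i) + i ≤ Module.finrank 𝕜 (R ⧸ Ideal.span {f}) := by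
    intro i
    induction i with
    | zero => intro _; simpa using Submodule.finrank_le (N 0)
    | succ i ih =>
      intro hi
      have h1 := ih (by omega)
      have h2 := Submodule.finrank_lt_finrank_of_lt (hlt i (by omega))
      omega
  have := hind s le_rfl
  omega

/-- number of simple zeros -/
theorem card_le_finrank (P : Finset (R →ₐ[𝕜] 𝕜)) (f : R) (hf : ∀ φ ∈ P, φ f = 0)
    (hfin : Module.Finite 𝕜 (R ⧸ Ideal.span {f})) :
    P.card ≤ Module.finrank 𝕜 (R ⧸ Ideal.span {f}) := by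
  classical
  let L : R →ₗ[𝕜] (P → 𝕜) := LinearMap.pi fun i => i.1.toLinearMap
  have hker : (Ideal.span {f}).restrictScalars 𝕜 ≤ LinearMap.ker L := by
    intro a ha
    rw [Submodule.restrictScalars_mem, Ideal.mem_span_singleton'] at ha
    obtain ⟨b, rfl⟩ := ha
    rw [LinearMap.mem_ker]
    ext i
    change i.1 (b * f) = 0
    rw [map_mul, hf i.1 i.2, mul_zero]
  let Lb : (R ⧸ (Ideal.span {f}).restrictScalars 𝕜) →ₗ[𝕜] (P → 𝕜) :=
    ((Ideal.span {f}).restrictScalars 𝕜).liftQ L hker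
  have hsurj : Function.Surjective Lb := by
    intro c
    have h2 : ∀ φ : P, ∃ e : R, φ.1 e = 1 ∧ ∀ χ ∈ P, χ ≠ φ.1 → χ e = 0 :=
      fun φ => exists_sep P φ.1
    choose e he1 he0 using h2
    refine ⟨Submodule.Quotient.mk (∑ φ : P, c φ • e φ), ?_⟩
    change L (∑ φ : P, c φ • e φ) = c
    ext i
    change i.1 (∑ φ : P, c φ • e φ) = c i
    rw [map_sum, Finset.sum_eq_single i]
    · rw [map_smul, he1, smul_eq_mul, mul_one]
    · intro χ _ hχ
      rw [map_smul, he0 χ i.1 i.2 (fun h => hχ (Subtype.ext h.symm)), smul_zero]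
    · intro h
      exact absurd (Finset.mem_univ _) h
  have hfin' : Module.Finite 𝕜 (R ⧸ (Ideal.span {f}).restrictScalars 𝕜) := hfin
  have h5 := LinearMap.finrank_le_finrank_of_surjective hsurj
  rw [Module.finrank_fintype_fun_eq_card, Fintype.card_coe] at h5
  exact h5

theorem coreP (n W g p μ : ℕ) (hn : 1 ≤ n) [Fact p.Prime] {𝕜 : Type} [Field 𝕜] [IsAlgClosed 𝕜]
    [CharP 𝕜 p]
    {R : Type} [CommRing R] [IsDomain R] [IsNoetherianRing R] [Algebra 𝕜 R]
    (V : ℕ → Submodule 𝕜 R)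
    (hV : Filt 𝕜 n W V)
    (hsep : ∀ f : R, f ≠ 0 → ∃ φ : R →ₐ[𝕜] 𝕜, φ f ≠ 0)
    {Q : Type} [CommRing Q] [Algebra 𝕜 Q] [Algebra R Q] [IsScalarTower 𝕜 R Q]
    (VQ : ℕ → Submodule 𝕜 Q) (hQfin : ∀ T, Module.Finite 𝕜 (VQ T))
    (hQmul : ∀ A B, ∀ a ∈ V A, ∀ b ∈ VQ B, algebraMap R Q a * b ∈ VQ (A + B))
    (hQdim : ∀ T, Module.finrank 𝕜 (VQ T) ≤ g * n * (T + 1))
    (M : Set (R × Q))
    (hM : ∀ T, V T ≤ Submodule.span 𝕜 {b : R | ∃ β : Q, (b, β) ∈ M ∧ b ∈ V T ∧ β ∈ VQ T})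
    (P : Finset (R →ₐ[𝕜] 𝕜))
    (hψ : ∀ φ ∈ P, ∃ ψ : Q →+* 𝕜, (∀ a : R, ψ (algebraMap R Q a) = φ a) ∧
      ∀ b β, (b, β) ∈ M → ψ β = (φ b) ^ (p ^ (2 * μ)))
    (A B : ℕ) (h1 : n * (A + W + 1) < p ^ μ)
    (h2 : g * n * (p ^ μ * A + B + 1) < Module.finrank 𝕜 (V B) * Module.finrank 𝕜 (V A)) :
    P.card ≤ n * (A + p ^ μ * B + W + 1) := by
  classical
  have hcharR : CharP R p := charP_of_injective_algebraMap (algebraMap 𝕜 R).injective p
  set s : ℕ := p ^ μ with hs
  have hs0 : s ≠ 0 := pow_ne_zero _ (Fact.out : p.Prime).ne_zero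
  have := hV.fin A
  have := hV.fin B
  have := hQfin (s * A + B)
  obtain ⟨ι, hι, b, β, hli, hbM, hbV, hβV, hcard⟩ := exists_family (V B) (VQ B) M (hM B)
  set d : ℕ := Module.finrank 𝕜 (V A) with hd
  let fb : Module.Basis (Fin d) 𝕜 (V A) := Module.finBasis 𝕜 (V A)
  -- the vectors `f_ν ^ s β_l`
  let w : ι × Fin d → VQ (s * A + B) := fun i =>
    ⟨algebraMap R Q ((fb i.2 : R) ^ s) * β i.1, hQmul _ _ _ (pow_mem hV (fb i.2).2 s) _ (hβV i.1)⟩
  let T : (ι × Fin d → 𝕜) →ₗ[𝕜] VQ (s * A + B) := Fintype.linearCombination 𝕜 w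
  have hker : LinearMap.ker T ≠ ⊥ := by
    apply LinearMap.ker_ne_bot_of_finrank_lt
    rw [Module.finrank_fintype_fun_eq_card, Fintype.card_prod, Fintype.card_fin]
    calc Module.finrank 𝕜 (VQ (s * A + B)) ≤ g * n * (s * A + B + 1) := hQdim _
      _ < _ := h2
      _ ≤ _ := Nat.mul_le_mul_right _ hcard
  obtain ⟨y, hyT, hy0⟩ := Submodule.exists_mem_ne_zero_of_ne_bot hker
  choose x hx using fun i : ι × Fin d => IsAlgClosed.exists_pow_nat_eq (y i)
    (Nat.pos_of_ne_zero hs0)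
  set a : ι → V A := fun l => ∑ ν, x (l, ν) • fb ν with ha
  have haV : ∀ l, ((a l : V A) : R) = ∑ ν, x (l, ν) • (fb ν : R) := by
    intro l
    rw [ha]
    simp
  have hapow : ∀ l, ((a l : V A) : R) ^ s = ∑ ν, y (l, ν) • (fb ν : R) ^ s := by
    intro l
    rw [haV, hs, sum_pow_char_pow]
    refine Finset.sum_congr rfl fun ν _ => ?_
    rw [smul_pow, ← hs, hx]
  have hcond : ∑ l, algebraMap R Q (((a l : V A) : R) ^ s) * β l = 0 := by
    have h3 : ((T y : VQ (s * A + B)) : Q) = 0 := by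
      rw [LinearMap.mem_ker.1 hyT]; rfl
    have h4 : ((T y : VQ (s * A + B)) : Q) = ∑ i : ι × Fin d,
        y i • (algebraMap R Q ((fb i.2 : R) ^ s) * β i.1) := by
      simp only [T, Fintype.linearCombination_apply, w]
      rw [AddSubmonoidClass.coe_finsetSum]
      rfl
    rw [h4, Fintype.sum_prod_type] at h3
    rw [← h3]
    refine Finset.sum_congr rfl fun l _ => ?_
    rw [hapow, map_sum, Finset.sum_mul]
    refine Finset.sum_congr rfl fun ν _ => ?_
    rw [Algebra.smul_def (y (l, ν)) ((fb ν : R) ^ s), map_mul, Algebra.smul_def,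
      ← IsScalarTower.algebraMap_apply 𝕜 R Q, mul_assoc]
  have hane : ∃ l, ((a l : V A) : R) ≠ 0 := by
    by_contra hcon
    push Not at hcon
    apply hy0
    ext i
    obtain ⟨l, ν⟩ := i
    have h3 : (∑ ν, x (l, ν) • fb ν) = 0 := Subtype.ext (hcon l)
    have h4 := Fintype.linearIndependent_iff.1 fb.linearIndependent (fun ν => x (l, ν)) h3 ν
    rw [← hx, h4, zero_pow hs0]
    rfl
  -- the auxiliary function
  set Φ : R := ∑ l, (a l : R) * b l ^ s with hΦ
  have hΦV : Φ ∈ V (A + s * B) :=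
    Submodule.sum_mem _ fun l _ => hV.mul_mem (a l).2 (pow_mem hV (hbV l) s)
  have hΦ0 : Φ ≠ 0 := by
    intro h0
    obtain ⟨l₀, hl₀⟩ := hane
    obtain ⟨lam, hlam⟩ : ∃ lam : Module.Dual 𝕜 R, lam (a l₀ : R) ≠ 0 := by
      by_contra hcon
      push Not at hcon
      exact hl₀ ((Module.forall_dual_apply_eq_zero_iff 𝕜 _).1 hcon)
    choose ρ hρ using fun l : ι => IsAlgClosed.exists_pow_nat_eq (lam (a l : R))
      (Nat.pos_of_ne_zero hs0)
    have hu : ∑ l, ρ l • b l ≠ 0 := by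
      intro hu
      have h3 := Fintype.linearIndependent_iff.1 hli ρ hu l₀
      have h4 := hρ l₀
      rw [h3, zero_pow hs0] at h4
      exact hlam h4.symm
    obtain ⟨φ, hφ⟩ := hsep _ hu
    set f : R := ∑ l, (φ (b l)) ^ s • (a l : R) with hf
    have hfV : f ∈ V A := Submodule.sum_mem _ fun l _ => Submodule.smul_mem _ _ (a l).2
    have hf0 : f ≠ 0 := by
      intro hf0
      apply hφ
      have h3 : lam f = (φ (∑ l, ρ l • b l)) ^ s := by
        rw [hf, map_sum, map_sum, hs, sum_pow_char_pow, ← hs]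
        refine Finset.sum_congr rfl fun l _ => ?_
        rw [map_smul, map_smul, smul_eq_mul, smul_eq_mul, mul_pow, hρ, mul_comm]
      rw [hf0, map_zero] at h3
      exact pow_eq_zero_iff hs0 |>.1 h3.symm
    have hfm : f ∈ (RingHom.ker φ) ^ s := by
      have h3 : f = ∑ l, (a l : R) * (algebraMap 𝕜 R (φ (b l)) - b l) ^ s := by
        have h4 : ∀ l, (algebraMap 𝕜 R (φ (b l)) - b l) ^ s =
            algebraMap 𝕜 R (φ (b l) ^ s) - b l ^ s := by
          intro l
          rw [hs, sub_pow_char_pow, map_pow]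
        simp_rw [h4, mul_sub, Finset.sum_sub_distrib]
        rw [← hΦ, h0, sub_zero, hf]
        refine Finset.sum_congr rfl fun l _ => ?_
        rw [Algebra.smul_def, mul_comm]
      rw [h3]
      refine Ideal.sum_mem _ fun l _ => Ideal.mul_mem_left _ _ (Ideal.pow_mem_pow ?_ s)
      rw [RingHom.mem_ker, map_sub, AlgHom.commutes, Algebra.algebraMap_self_apply, sub_self]
    obtain ⟨hfin, hle⟩ := quot_finrank_le hV hf0 hfV
    have h5 := le_finrank_of_mem_pow (not_finite_of_filt hn hV) φ s f hfm hfin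
    omega
  -- zeros
  have hzero : ∀ φ ∈ P, φ Φ = 0 := by
    intro φ hφ
    obtain ⟨ψ, hψ1, hψ2⟩ := hψ φ hφ
    have h3 := congrArg ψ hcond
    rw [map_sum, map_zero] at h3
    have h4 : (φ Φ) ^ s = 0 := by
      rw [hΦ, map_sum, hs, sum_pow_char_pow, ← hs, ← h3]
      refine Finset.sum_congr rfl fun l _ => ?_
      rw [map_mul, map_mul, map_pow, hψ1, hψ2 _ _ (hbM l), map_pow, mul_pow, ← pow_mul]
      congr 2
      rw [hs, ← pow_add, two_mul]
    exact pow_eq_zero_iff hs0 |>.1 h4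
  obtain ⟨hfin, hle⟩ := quot_finrank_le hV hΦ0 hΦV
  exact (card_le_finrank P Φ hzero hfin).trans hle

end Vale.Agent.P042.WB.STPB
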