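import Vale.Agent.P042.WB.STP.Core
import Vale.Agent.P042.WB.Spec
set_option autoImplicit false

/-! P042, block STP: the power Stepanov lemma (helper682). -/

namespace Vale.Agent.P042.WB

open STPB Vale.Agent.P042.WA

namespace STPB

/-- choice of the parameters -/
theorem paramsP (n W g : ℕ) (hn : 1 ≤ n) (s : ℕ)
    (hs : g * n * (2 + W + (4 * (g * W + g * g) + 4)) + 2 * (n * (2 * W + 2)) + 2 ≤ s) :
    ∃ A B : ℕ, n * (A + W + 1) < s ∧
      n * B ≤ g * s + n * (1 + W + (4 * (g * W + g * g) + 4)) ∧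
      ∀ X Y : ℕ, n * A ≤ X + n * W → n * B ≤ Y + n * W →
        g * n * (s * A + B + 1) < Y * X := by
  set c : ℕ := 4 * (g * W + g * g) + 4 with hc
  set N0 : ℕ := (s - 1) / n with hN0
  have hN1 : n * N0 ≤ s - 1 := Nat.mul_div_le _ _
  have hN2 : s - 1 < n * (N0 + 1) := by
    rw [hN0]
    exact Nat.lt_mul_div_succ (s - 1) (by omega)
  have hN3 : 2 * W + 2 ≤ N0 := by
    by_contra hcon
    push Not at hcon
    have h3 : n * (N0 + 1) ≤ n * (2 * W + 2) := Nat.mul_le_mul_left _ hcon
    omega
  set A : ℕ := N0 - W - 1 with hA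
  have hA1 : A + W + 1 = N0 := by omega
  set B : ℕ := (g * s) / n + 1 + W + c with hB
  have hB1 : n * ((g * s) / n) ≤ g * s := Nat.mul_div_le _ _
  have hB2 : g * s < n * ((g * s) / n + 1) := Nat.lt_mul_div_succ _ (by omega)
  have hBu : n * B ≤ g * s + n * (1 + W + c) := by
    rw [hB]
    have : n * (g * s / n + 1 + W + c) = n * (g * s / n) + n * (1 + W + c) := by ring
    omega
  have hBl : g * s + n * c + n * W ≤ n * B := by
    rw [hB]
    have : n * (g * s / n + 1 + W + c) = n * (g * s / n + 1) + n * c + n * W := by ring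
    omega
  refine ⟨A, B, ?_, hBu, ?_⟩
  · rw [hA1]; omega
  · intro X Y hX hY
    have hAl : s ≤ n * A + n * (W + 2) := by
      have e : n * (N0 + 1) = n * A + n * (W + 2) := by rw [← hA1]; ring
      omega
    have hXl : s ≤ X + n * (2 * W + 2) := by
      have e : n * (2 * W + 2) = n * W + n * (W + 2) := by ring
      omega
    have hXl2 : s ≤ 2 * X := by
      have : 2 * (n * (2 * W + 2)) ≤ s := by omega
      omega
    have hYl : g * s + n * c ≤ Y := by omega
    have key : g * s * (n * W) + g * (n * B) + g * n < X * (n * c) := by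
      have e1 : g * (n * B) ≤ g * (g * s + n * (1 + W + c)) := Nat.mul_le_mul_left _ hBu
      have e2 : g * (g * s + n * (1 + W + c)) + g * n = g * g * s + g * n * (2 + W + c) := by
        ring
      have e3 : g * n * (2 + W + c) ≤ s := by omega
      have e6 : 4 * (g * W * n + g * g) + 4 ≤ n * c := by
        rw [hc]
        have : g * g ≤ n * (g * g) := Nat.le_mul_of_pos_left _ (by omega)
        nlinarith
      have e7 : s * (4 * (g * W * n + g * g) + 4) ≤ 2 * (X * (n * c)) := by
        calc s * (4 * (g * W * n + g * g) + 4) ≤ (2 * X) * (n * c) := Nat.mul_le_mul hXl2 e6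
          _ = 2 * (X * (n * c)) := by ring
      have e9 : s * (4 * (g * W * n + g * g) + 4) =
          4 * (g * s * (n * W)) + 4 * (g * g * s) + 4 * s := by
        ring
      omega
    calc g * n * (s * A + B + 1)
        = g * s * (n * A) + (g * (n * B) + g * n) := by ring
      _ ≤ g * s * (X + n * W) + (g * (n * B) + g * n) := by gcongr
      _ = X * (g * s) + (g * s * (n * W) + g * (n * B) + g * n) := by ring
      _ < X * (g * s) + X * (n * c) := by omega
      _ = (g * s + n * c) * X := by ring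
      _ ≤ Y * X := Nat.mul_le_mul_right _ hYl

end STPB

/-- the power Stepanov lemma -/
theorem stp : STP := by
  intro n W g hn
  refine ⟨1 + n * (1 + W + (4 * (g * W + g * g) + 4)),
    g * n * (2 + W + (4 * (g * W + g * g) + 4)) + 2 * (n * (2 * W + 2)) + 2, ?_⟩
  intro p hp 𝕜 _ _ _ R _ _ _ _ V hV hsep Q _ _ _ _ VQ hQmono hQfin hQmul hQdim M hM μ hμ P hψ
  have : Fact p.Prime := ⟨hp⟩
  have hμs : μ ≤ p ^ μ := (Nat.lt_pow_self hp.one_lt).le
  obtain ⟨A, B, h1, hB, h2⟩ := paramsP n W g hn (p ^ μ) (hμ.trans hμs)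
  have hcore := coreP n W g p μ hn V hV hsep VQ hQfin hQmul hQdim M hM P hψ A B h1
    (h2 _ _ (hV.lower A) (hV.lower B))
  set c : ℕ := 1 + n * (1 + W + (4 * (g * W + g * g) + 4)) with hc
  calc P.card ≤ n * (A + p ^ μ * B + W + 1) := hcore
    _ = n * (A + W + 1) + p ^ μ * (n * B) := by ring
    _ ≤ p ^ μ + p ^ μ * (g * p ^ μ + n * (1 + W + (4 * (g * W + g * g) + 4))) := by gcongr
    _ = g * p ^ (2 * μ) + c * p ^ μ := by rw [hc, two_mul, pow_add]; ring

end Vale.Agent.P042.WB
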